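import Vale.Agent.P297.H116.Z2.InvI
import Vale.Agent.P297.H116.Z2.InvJ

/-!
The invariants of the quartics of the nodes of `T_l` are polynomials in `l`.
-/

set_option linter.unusedSectionVars false
set_option linter.unusedVariables false
set_option linter.unusedSimpArgs false

open Polynomial

namespace Vale.Agent.P297.H116.Inv

open Vale.Agent.P224.POS Vale.Agent.P297.Z2 Vale.Agent.P297.G4
open Vale.Agent.P297.H160.Z2Irr

noncomputable section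

/-! ### The expressions of the quartic -/

section ring

variable {R : Type} [CommRing R] (f : ℕ → R)

theorem ev_n0 : PE.ev f (0 : PE) = 0 := by simpa using PE.ev_ofNat f 0
theorem ev_n1 : PE.ev f (1 : PE) = 1 := by simpa using PE.ev_ofNat f 1
theorem ev_n2 : PE.ev f (2 : PE) = 2 := by simpa using PE.ev_ofNat f 2
theorem ev_n3 : PE.ev f (3 : PE) = 3 := by simpa using PE.ev_ofNat f 3
theorem ev_n4 : PE.ev f (4 : PE) = 4 := by simpa using PE.ev_ofNat f 4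
theorem ev_n9 : PE.ev f (9 : PE) = 9 := by simpa using PE.ev_ofNat f 9
theorem ev_n12 : PE.ev f (12 : PE) = 12 := by simpa using PE.ev_ofNat f 12
theorem ev_n27 : PE.ev f (27 : PE) = 27 := by simpa using PE.ev_ofNat f 27
theorem ev_n72 : PE.ev f (72 : PE) = 72 := by simpa using PE.ev_ofNat f 72

theorem ev_al : PE.ev f E.al = (td f).al := rfl
theorem ev_be : PE.ev f E.be = (td f).be := rfl
theorem ev_A : PE.ev f E.A = (td f).A := rfl
theorem ev_C : PE.ev f E.C = (td f).C := rfl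
theorem ev_e : PE.ev f E.e = (td f).e := rfl

theorem ev_l : PE.ev f E.l = (td f).l := by
  simp only [E.l, PE.ev_sub', ev_n0, ev_n1, ev_n2, ev_n3, ev_n4, ev_n9, ev_n12,
    ev_n27, ev_n72, ev_e, td]

theorem ev_pn : PE.ev f E.pn = (td f).pn := rfl

theorem ev_rn : PE.ev f E.rn = (td f).rn := by
  simp only [E.rn, PE.ev_sub', PE.ev_mul', ev_n0, ev_n1, ev_n2, ev_n3, ev_n4, ev_n9, ev_n12,
    ev_n27, ev_n72, ev_be, ev_A, E.v, PE.ev_v, td]
  ring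

theorem ev_kp : PE.ev f E.kp = (td f).kp := by
  simp only [E.kp, PE.ev_sub', PE.ev_add', PE.ev_mul', ev_al, ev_be, ev_A, ev_l, ev_e, E.v, E.u, E.Q,
    PE.ev_v, td]

theorem ev_kr : PE.ev f E.kr = (td f).kr := by
  simp only [E.kr, PE.ev_sub', PE.ev_add', PE.ev_mul', ev_al, ev_be, ev_C, ev_l, ev_e, E.v, E.u,
    PE.ev_v, ev_n0, ev_n1, ev_n2, ev_n3, ev_n4, ev_n9, ev_n12,
    ev_n27, ev_n72, td]

theorem ev_w0 : PE.ev f E.w0 = (td f).w0 := by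
  simp only [E.w0, PE.ev_sub', PE.ev_add', PE.ev_mul', ev_al, ev_be, ev_A, ev_C, ev_l, ev_e, E.v, E.u,
    E.K, PE.ev_v, ev_n0, ev_n1, ev_n2, ev_n3, ev_n4, ev_n9, ev_n12,
    ev_n27, ev_n72, td]
  ring

theorem ev_c : PE.ev f E.c = (td f).c := by
  simp only [E.c, TD.c, PE.ev_add', PE.ev_mul', ev_al, ev_be, ev_pn, ev_rn]

theorem ev_Q20 : PE.ev f E.Q20 = (td f).Q20 := by
  simp only [E.Q20, TD.Q20, PE.ev_sub', PE.ev_mul', ev_al, ev_be, ev_A, ev_C, ev_n0, ev_n1, ev_n2, ev_n3, ev_n4, ev_n9, ev_n12,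
    ev_n27, ev_n72]
  ring

theorem ev_h0 : PE.ev f E.h0 = (td f).h0 := by
  simp only [E.h0, TD.h0, PE.ev_add', PE.ev_mul', ev_al, ev_be, ev_A, ev_C]

theorem ev_h1 : PE.ev f E.h1 = (td f).h1 := by
  simp only [E.h1, TD.h1, PE.ev_add', PE.ev_mul', ev_al, ev_be, ev_A, ev_C]

theorem ev_Y11 : PE.ev f E.Y11 = (td f).Y11 := by
  simp only [E.Y11, TD.Y11, PE.ev_sub', PE.ev_add', PE.ev_mul', ev_al, ev_be, ev_l, ev_n0, ev_n1, ev_n2, ev_n3, ev_n4, ev_n9, ev_n12,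
    ev_n27, ev_n72]
  ring

theorem ev_Y10 : PE.ev f E.Y10 = (td f).Y10 := by
  simp only [E.Y10, TD.Y10, PE.ev_sub', PE.ev_add', PE.ev_mul', ev_al, ev_be, ev_l, ev_A, ev_C, ev_e,
    ev_pn, ev_rn, ev_kp, ev_kr, ev_n0, ev_n1, ev_n2, ev_n3, ev_n4, ev_n9, ev_n12,
    ev_n27, ev_n72]
  ring

theorem ev_Y02 : PE.ev f E.Y02 = (td f).Y02 := by
  simp only [E.Y02, TD.Y02, PE.ev_add', PE.ev_mul', ev_l, ev_e, ev_n0, ev_n1, ev_n2, ev_n3, ev_n4, ev_n9, ev_n12,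
    ev_n27, ev_n72]

theorem ev_Y01 : PE.ev f E.Y01 = (td f).Y01 := by
  simp only [E.Y01, TD.Y01, PE.ev_sub', PE.ev_add', PE.ev_mul', ev_l, ev_h0, ev_c, ev_kp, ev_kr,
    ev_n0, ev_n1, ev_n2, ev_n3, ev_n4, ev_n9, ev_n12,
    ev_n27, ev_n72]

theorem ev_Y00 : PE.ev f E.Y00 = (td f).Y00 := by
  simp only [E.Y00, TD.Y00, PE.ev_sub', PE.ev_add', PE.ev_mul', PE.ev_pow', ev_al, ev_be, ev_l, ev_h0,
    ev_c, ev_kp, ev_kr, ev_e, ev_Q20, ev_pn, ev_rn, ev_w0, ev_n0, ev_n1, ev_n2, ev_n3, ev_n4, ev_n9, ev_n12,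
    ev_n27, ev_n72]

theorem ev_mu0 : PE.ev f E.mu0 = (td f).mu0 := by
  simp only [E.mu0, TD.mu0, PE.ev_sub', PE.ev_add', PE.ev_mul', ev_l, ev_h0, ev_kp, ev_kr]

theorem ev_ze0 : PE.ev f E.ze0 = (td f).ze0 := by
  simp only [E.ze0, TD.ze0, PE.ev_sub', PE.ev_add', PE.ev_mul', PE.ev_pow', ev_Q20, ev_al, ev_be,
    ev_pn, ev_rn, ev_kp, ev_kr, ev_w0]

theorem ev_K12 : PE.ev f E.K12 = (td f).K12 := by
  simp only [E.K12, TD.K12, PE.ev_sub', PE.ev_mul', ev_l, ev_e, ev_n0, ev_n1, ev_n2, ev_n3, ev_n4, ev_n9, ev_n12,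
    ev_n27, ev_n72]
  ring

theorem ev_K11 : PE.ev f E.K11 = (td f).K11 := by
  simp only [E.K11, TD.K11, PE.ev_sub', PE.ev_add', PE.ev_mul', ev_al, ev_be,
    ev_pn, ev_rn, ev_kp, ev_kr, ev_n0, ev_n1, ev_n2, ev_n3, ev_n4, ev_n9, ev_n12,
    ev_n27, ev_n72]
  ring

theorem ev_K10 : PE.ev f E.K10 = (td f).K10 := by
  simp only [E.K10, TD.K10, PE.ev_sub', PE.ev_add', PE.ev_mul', PE.ev_pow', ev_al, ev_be, ev_l, ev_e,
    ev_Q20, ev_pn, ev_rn, ev_kp, ev_kr, ev_A, ev_C, ev_n0, ev_n1, ev_n2, ev_n3, ev_n4, ev_n9, ev_n12,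
    ev_n27, ev_n72]
  ring

theorem ev_G3 : PE.ev f E.G3 = (td f).G3 := by
  simp only [E.G3, TD.G3, PE.ev_sub', PE.ev_mul', ev_l, ev_e, ev_n0, ev_n1, ev_n2, ev_n3, ev_n4, ev_n9, ev_n12,
    ev_n27, ev_n72]
  ring

theorem ev_G2 : PE.ev f E.G2 = (td f).G2 := by
  simp only [E.G2, TD.G2, PE.ev_sub', PE.ev_add', PE.ev_mul', ev_al, ev_be, ev_K11, ev_c, ev_K12,
    ev_h1, ev_h0, ev_n0, ev_n1, ev_n2, ev_n3, ev_n4, ev_n9, ev_n12,
    ev_n27, ev_n72]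

theorem ev_G1 : PE.ev f E.G1 = (td f).G1 := by
  simp only [E.G1, TD.G1, PE.ev_sub', PE.ev_add', PE.ev_mul', PE.ev_pow', ev_al, ev_be, ev_K10, ev_c,
    ev_K11, ev_ze0, ev_h0, ev_n0, ev_n1, ev_n2, ev_n3, ev_n4, ev_n9, ev_n12,
    ev_n27, ev_n72]

theorem ev_G0 : PE.ev f E.G0 = (td f).G0 := by
  simp only [E.G0, TD.G0, PE.ev_sub', PE.ev_add', PE.ev_mul', PE.ev_pow', ev_al, ev_be, ev_K10, ev_c,
    ev_ze0, ev_h0, ev_h1, ev_n0, ev_n1, ev_n2, ev_n3, ev_n4, ev_n9, ev_n12,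
    ev_n27, ev_n72]
  ring

theorem ev_D2 : PE.ev f E.D2 = (td f).D2 := by
  simp only [E.D2, TD.D2, PE.ev_add', PE.ev_mul', PE.ev_pow', ev_al, ev_be, ev_Y11, ev_Y02, ev_e,
    ev_n0, ev_n1, ev_n2, ev_n3, ev_n4, ev_n9, ev_n12,
    ev_n27, ev_n72]

theorem ev_D1 : PE.ev f E.D1 = (td f).D1 := by
  simp only [E.D1, TD.D1, PE.ev_add', PE.ev_mul', ev_al, ev_be, ev_Y11, ev_Y10, ev_Y01, ev_e,
    ev_n0, ev_n1, ev_n2, ev_n3, ev_n4, ev_n9, ev_n12,
    ev_n27, ev_n72]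

theorem ev_D0 : PE.ev f E.D0 = (td f).D0 := by
  simp only [E.D0, TD.D0, PE.ev_add', PE.ev_mul', PE.ev_pow', ev_al, ev_be, ev_Y10, ev_Y00, ev_e,
    ev_n0, ev_n1, ev_n2, ev_n3, ev_n4, ev_n9, ev_n12,
    ev_n27, ev_n72]

theorem ev_q0 : PE.ev f E.q0 = (td f).qc 0 := by
  change _ = (td f).Q20 * (td f).D0 - 2 * (td f).l * ((td f).mu0 * (td f).G0) +
    (td f).l ^ 2 * ((td f).mu0 * (td f).c) ^ 2
  simp only [E.q0, PE.ev_sub', PE.ev_add', PE.ev_mul', PE.ev_pow', ev_Q20, ev_D0, ev_l, ev_mu0,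
    ev_G0, ev_c, ev_n0, ev_n1, ev_n2, ev_n3, ev_n4, ev_n9, ev_n12,
    ev_n27, ev_n72]

theorem ev_q1 : PE.ev f E.q1 = (td f).qc 1 := by
  change _ = (td f).Q20 * (td f).D1 - 2 * (td f).l * ((td f).l * (td f).G0 +
    (td f).mu0 * (td f).G1) - 2 * (td f).l ^ 2 * (((td f).mu0 - (td f).l * (td f).c) *
      ((td f).mu0 * (td f).c))
  simp only [E.q1, PE.ev_sub', PE.ev_add', PE.ev_mul', PE.ev_pow', ev_Q20, ev_D1, ev_l, ev_mu0,
    ev_G0, ev_G1, ev_c, ev_n0, ev_n1, ev_n2, ev_n3, ev_n4, ev_n9, ev_n12,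
    ev_n27, ev_n72]

theorem ev_q2 : PE.ev f E.q2 = (td f).qc 2 := by
  change _ = (td f).D0 + (td f).Q20 * (td f).D2 - 2 * (td f).l * ((td f).l * (td f).G1 +
    (td f).mu0 * (td f).G2) + (td f).l ^ 2 * (((td f).mu0 - (td f).l * (td f).c) ^ 2 -
      2 * (td f).l * ((td f).mu0 * (td f).c))
  simp only [E.q2, PE.ev_sub', PE.ev_add', PE.ev_mul', PE.ev_pow', ev_Q20, ev_D0, ev_D2, ev_l, ev_mu0,
    ev_G1, ev_G2, ev_c, ev_n0, ev_n1, ev_n2, ev_n3, ev_n4, ev_n9, ev_n12,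
    ev_n27, ev_n72]

theorem ev_q3 : PE.ev f E.q3 = (td f).qc 3 := by
  change _ = (td f).D1 - 2 * (td f).l * ((td f).l * (td f).G2 + (td f).mu0 * (td f).G3) +
    2 * (td f).l ^ 3 * ((td f).mu0 - (td f).l * (td f).c)
  simp only [E.q3, PE.ev_sub', PE.ev_add', PE.ev_mul', PE.ev_pow', ev_D1, ev_l, ev_mu0,
    ev_G2, ev_G3, ev_c, ev_n0, ev_n1, ev_n2, ev_n3, ev_n4, ev_n9, ev_n12,
    ev_n27, ev_n72]

theorem ev_q4 : PE.ev f E.q4 = (td f).qc 4 := by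
  change _ = (td f).D2 - 2 * (td f).l ^ 2 * (td f).G3 + (td f).l ^ 4
  simp only [E.q4, PE.ev_sub', PE.ev_add', PE.ev_mul', PE.ev_pow', ev_D2, ev_l, ev_G3, ev_n0, ev_n1, ev_n2, ev_n3, ev_n4, ev_n9, ev_n12,
    ev_n27, ev_n72]

theorem ev_iI : PE.ev f E.iI = qI (td f).qc := by
  simp only [E.iI, qI, PE.ev_sub', PE.ev_add', PE.ev_mul', PE.ev_pow', ev_q0, ev_q1, ev_q2, ev_q3,
    ev_q4, ev_n0, ev_n1, ev_n2, ev_n3, ev_n4, ev_n9, ev_n12,
    ev_n27, ev_n72]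

theorem ev_iJ : PE.ev f E.iJ = qJ (td f).qc := by
  simp only [E.iJ, qJ, PE.ev_sub', PE.ev_add', PE.ev_mul', PE.ev_pow', ev_q0, ev_q1, ev_q2, ev_q3,
    ev_q4, ev_n0, ev_n1, ev_n2, ev_n3, ev_n4, ev_n9, ev_n12,
    ev_n27, ev_n72]

/-- The values of seven letters. -/
def lt (l K x y q U V : R) : ℕ → R
  | 0 => l
  | 1 => K
  | 2 => x
  | 3 => y
  | 4 => q
  | 5 => U
  | 6 => V
  | _ => 0

theorem ev_w (i : ℕ) : PE.ev f (E.w i) = lt (1 - (f 1 - f 0)) ((f 0 * f 1) ^ 2 * f 7)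
    (f 1 ^ 2 * f 3) (f 0 ^ 2 * f 2) (f 0 * f 1 * f 4) (f 0 * f 1 * f 5) (f 0 * f 1 * f 6) i := by
  match i with
  | 0 => exact ev_l f
  | 1 => rfl
  | 2 => rfl
  | 3 => rfl
  | 4 => rfl
  | 5 => rfl
  | 6 => rfl
  | i + 7 =>
    exact ev_n0 f

theorem ev_b : PE.ev f E.b = f 0 * f 1 * ((1 - (f 1 - f 0)) * (f 2 + f 3) - f 0 * f 4) := by
  simp only [E.b, PE.ev_sub', PE.ev_add', PE.ev_mul', ev_l]
  rfl

/-- The invariant of degree two. -/
theorem qI_td (hf : ∀ i, 12 ≤ i → f i = 0) : qI (td f).qc =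
    tabEv (lt (1 - (f 1 - f 0)) ((f 0 * f 1) ^ 2 * f 7) (f 1 ^ 2 * f 3) (f 0 ^ 2 * f 2)
      (f 0 * f 1 * f 4) (f 0 * f 1 * f 5) (f 0 * f 1 * f 6))
      (f 0 * f 1 * ((1 - (f 1 - f 0)) * (f 2 + f 3) - f 0 * f 4)) tab4 := by
  have h := ev_eq_of_chk chkI f hf
  rw [ev_iI, ev_tabPE, ev_b] at h
  rw [h]
  congr 1
  funext i
  exact ev_w f i

/-- The invariant of degree three. -/
theorem qJ_td (hf : ∀ i, 12 ≤ i → f i = 0) : qJ (td f).qc =
    tabEv (lt (1 - (f 1 - f 0)) ((f 0 * f 1) ^ 2 * f 7) (f 1 ^ 2 * f 3) (f 0 ^ 2 * f 2)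
      (f 0 * f 1 * f 4) (f 0 * f 1 * f 5) (f 0 * f 1 * f 6))
      (f 0 * f 1 * ((1 - (f 1 - f 0)) * (f 2 + f 3) - f 0 * f 4)) tab6 := by
  have h := ev_eq_of_chk chkJ f hf
  rw [ev_iJ, ev_tabPE, ev_b] at h
  rw [h]
  congr 1
  funext i
  exact ev_w f i

/-! ### The reduction to `Q1 = 0` -/

/-- The values of the eight letters of the expressions. -/
def fv (al be A C Q u v K : R) : ℕ → R
  | 0 => al
  | 1 => be
  | 2 => A
  | 3 => C
  | 4 => Q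
  | 5 => u
  | 6 => v
  | 7 => K
  | _ => 0

theorem fv_zero (al be A C Q u v K : R) (i : ℕ) (hi : 12 ≤ i) : fv al be A C Q u v K i = 0 := by
  match i with
  | i + 8 => rfl

variable {d : TD R} {P0 P1 P2 Q0 Q1 u v m n τ : R}

theorem qc_rl (h : Rl d P0 P1 P2 Q0 Q1 u v m n) (hτ : Q1 = 2 * τ) :
    d.qc = (td (fv d.al d.be d.A d.C (Q0 - Q1) (u - τ) (v - τ)
      (m - n * d.l + d.l * P1 * τ - (1 - d.l) * τ ^ 2))).qc := by
  have he := h.e
  have hl := h.l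
  have hl' : 1 - (d.be - d.al) = d.l := by linear_combination he + (-1 : R) * hl
  have hnod := h.nod
  refine qc_shift (τ := τ) rfl rfl rfl ?_ ?_ rfl rfl ?_ ?_ ?_ ?_ ?_
  · change d.l = 1 - (d.be - d.al)
    exact hl'.symm
  · change d.e = d.be - d.al
    exact he
  · rw [h.pn]
    change _ = d.al * (u - τ) - d.C + d.al * τ
    ring
  · rw [h.rn]
    change _ = -(d.be * (v - τ)) - d.A - d.be * τ
    ring
  · rw [h.kp, hτ]
    change _ = d.al * d.be * (Q0 - 2 * τ - (1 - (d.be - d.al)) * (u - τ + (v - τ))) +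
      (1 - (d.be - d.al)) * (d.be - d.al) * d.A + 2 * (d.al * d.be * (d.be - d.al)) * τ
    rw [hl', he]
    rw [he] at hl
    linear_combination (-(2 * d.al * d.be * τ)) * hl
  · rw [h.kr, hτ]
    change _ = d.al * d.be * (0 - (1 - (d.be - d.al)) * (u - τ + (v - τ))) +
      (1 - (d.be - d.al)) * (d.be - d.al) * d.C + 2 * (d.al * d.be * (d.be - d.al)) * τ
    rw [hl', he]
    rw [he] at hl
    linear_combination (-(2 * d.al * d.be * τ)) * hl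
  · rw [h.w0, h.kp, h.kr, hτ]
    change _ = -(d.al * d.be * (m - n * d.l + d.l * P1 * τ - (1 - d.l) * τ ^ 2)) +
      2 * (1 - (d.be - d.al)) * (d.be - d.al) * d.A * d.C -
      (1 - (d.be - d.al)) * (d.be - d.al) * d.al * d.be * (u - τ) * (v - τ) -
      (1 - (d.be - d.al)) * d.al * (2 * d.be - d.al) * d.A * (u - τ) -
      (1 - (d.be - d.al)) * d.be * (2 * d.al - d.be) * d.C * (v - τ) -
      d.al * d.be * ((d.be - d.al) ^ 2 * τ ^ 2) - _ * (d.al * τ) + _ * (d.be * τ)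
    rw [hl', he]
    rw [he] at hl
    rw [hτ] at hnod
    linear_combination (d.al * d.be * τ) * hnod + (d.al * d.be * (d.be - d.al + 1) * τ ^ 2) * hl

/-- The letters at a node. -/
theorem lt_rl (h : Rl d P0 P1 P2 Q0 Q1 u v m n) (q U V K : R) :
    lt (1 - (d.be - d.al)) ((d.al * d.be) ^ 2 * K) (d.be ^ 2 * d.C) (d.al ^ 2 * d.A)
      (d.al * d.be * q) (d.al * d.be * U) (d.al * d.be * V) =
    scal (d.al * d.be) (lt d.l K P0 P2 q U V) := by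
  have he := h.e
  have hl := h.l
  have hl' : 1 - (d.be - d.al) = d.l := by linear_combination he + (-1 : R) * hl
  have hA := h.hA
  have hC := h.hC
  funext i
  match i with
  | 0 => exact hl'
  | 1 => rfl
  | 2 =>
    change d.be ^ 2 * d.C = d.al * d.be * P0
    linear_combination d.be * hC
  | 3 =>
    change d.al ^ 2 * d.A = d.al * d.be * P2
    linear_combination d.al * hA
  | 4 => rfl
  | 5 => rfl
  | 6 => rfl
  | i + 7 =>
    change (0 : R) = _ * 0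
    rw [mul_zero]

theorem tab_rl (h : Rl d P0 P1 P2 Q0 Q1 u v m n) (hτ : Q1 = 2 * τ) (T : List (List Row)) (w : ℕ)
    (hT : okW w 0 T = true) (q U V K : R) (hq : q = Q0 - Q1) :
    tabEv (lt (1 - (d.be - d.al)) ((d.al * d.be) ^ 2 * K) (d.be ^ 2 * d.C) (d.al ^ 2 * d.A)
      (d.al * d.be * q) (d.al * d.be * U) (d.al * d.be * V))
      (d.al * d.be * ((1 - (d.be - d.al)) * (d.A + d.C) - d.al * q)) T =
    (d.al * d.be) ^ w * tabEv (lt d.l K P0 P2 q U V) (d.l * (P1 + Q1) - Q1) T := by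
  have he := h.e
  have hl := h.l
  have hl' : 1 - (d.be - d.al) = d.l := by linear_combination he + (-1 : R) * hl
  have hb : (1 - (d.be - d.al)) * (d.A + d.C) - d.al * q = d.l * (P1 + Q1) - Q1 := by
    have hnod := h.nod
    rw [hl', hq]
    rw [he] at hl
    linear_combination (-1 : R) * hnod - Q1 * hl
  rw [lt_rl h, hb]
  exact tabEv_scal _ _ _ _ _ hT

end ring

/-! ### The polynomials -/

theorem ok4 : okW 4 0 tab4 = true := by decide +kernel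
theorem ok6 : okW 6 0 tab6 = true := by decide +kernel
theorem deg4 : okD 4 tab4 = true := by decide +kernel
theorem deg6 : okD 6 tab6 = true := by decide +kernel

section param

variable (P : Par)

/-- the letters as polynomials in `l` -/
def lz : ℕ → ℂ[X] :=
  lt X (C P.m - C P.n * X + X * C P.P1 * C (P.Q1 / 2) - (1 - X) * C (P.Q1 / 2) ^ 2) (C P.P0)
    (C P.P2) (C (P.Q0 - P.Q1)) (C (P.u - P.Q1 / 2)) (C (P.v - P.Q1 / 2))

/-- the letter `b` as a polynomial in `l` -/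
def lb : ℂ[X] := X * (C P.P1 + C P.Q1) - C P.Q1

/-- The invariant of degree two as a polynomial in `l`. -/
def pInv : ℂ[X] := tabEv (lz P) (lb P) tab4

/-- The invariant of degree three as a polynomial in `l`. -/
def qInv : ℂ[X] := tabEv (lz P) (lb P) tab6

theorem lz_deg (i : ℕ) : (lz P (i + 2)).natDegree = 0 := by
  match i with
  | 0 => exact natDegree_C _
  | 1 => exact natDegree_C _
  | 2 => exact natDegree_C _
  | 3 => exact natDegree_C _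
  | 4 => exact natDegree_C _
  | i + 5 => exact natDegree_zero

theorem lz0_deg : (lz P 0).natDegree ≤ 1 := natDegree_X_le

theorem lz1_deg : (lz P 1).natDegree ≤ 1 := by
  change (C P.m - C P.n * X + X * C P.P1 * C (P.Q1 / 2) -
    (1 - X) * C (P.Q1 / 2) ^ 2).natDegree ≤ 1
  have h : C P.m - C P.n * X + X * C P.P1 * C (P.Q1 / 2) - (1 - X) * C (P.Q1 / 2) ^ 2 =
      C (-P.n + P.P1 * (P.Q1 / 2) + (P.Q1 / 2) ^ 2) * X + C (P.m - (P.Q1 / 2) ^ 2) := by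
    simp only [map_add, map_sub, map_mul, map_neg, map_pow]
    ring
  rw [h]
  exact natDegree_linear_le

theorem lb_deg : (lb P).natDegree ≤ 1 := by
  have h : lb P = C (P.P1 + P.Q1) * X + C (-P.Q1) := by
    unfold lb
    simp only [map_add, map_neg]
    ring
  rw [h]
  exact natDegree_linear_le

theorem pInv_deg : (pInv P).natDegree ≤ 4 :=
  tabEv_deg (lz0_deg P) (lz1_deg P) (lz_deg P) (lb_deg P) tab4 4 deg4

theorem qInv_deg : (qInv P).natDegree ≤ 6 :=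
  tabEv_deg (lz0_deg P) (lz1_deg P) (lz_deg P) (lb_deg P) tab6 6 deg6

variable {P} {N : Type} [Field N] [Algebra ℂ N] {l al be : N}

theorem aeval_tab (l : N) (T : List (List Row)) : aeval l (tabEv (lz P) (lb P) T) =
    tabEv (lt l (algebraMap ℂ N P.m - algebraMap ℂ N P.n * l +
      l * algebraMap ℂ N P.P1 * algebraMap ℂ N (P.Q1 / 2) -
      (1 - l) * algebraMap ℂ N (P.Q1 / 2) ^ 2) (algebraMap ℂ N P.P0) (algebraMap ℂ N P.P2)
      (algebraMap ℂ N P.Q0 - algebraMap ℂ N P.Q1)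
      (algebraMap ℂ N P.u - algebraMap ℂ N (P.Q1 / 2))
      (algebraMap ℂ N P.v - algebraMap ℂ N (P.Q1 / 2)))
      (l * (algebraMap ℂ N P.P1 + algebraMap ℂ N P.Q1) - algebraMap ℂ N P.Q1) T := by
  have h := map_tabEv ((aeval l : ℂ[X] →ₐ[ℂ] N) : ℂ[X] →+* N) (lz P) (lb P) T
  rw [RingHom.coe_coe] at h
  rw [h]
  have hb : (aeval l) (lb P) =
      l * (algebraMap ℂ N P.P1 + algebraMap ℂ N P.Q1) - algebraMap ℂ N P.Q1 := by
    unfold lb
    simp only [map_sub, map_mul, map_add, aeval_X, aeval_C]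
  rw [hb]
  congr 1
  funext i
  match i with
  | 0 => exact aeval_X l
  | 1 =>
    change (aeval l) (C P.m - C P.n * X + X * C P.P1 * C (P.Q1 / 2) -
      (1 - X) * C (P.Q1 / 2) ^ 2) = _
    simp only [map_sub, map_mul, map_add, map_pow, map_one, aeval_X, aeval_C]
    rfl
  | 2 => exact aeval_C l _
  | 3 => exact aeval_C l _
  | 4 =>
    change (aeval l) (C (P.Q0 - P.Q1)) = _
    rw [aeval_C, map_sub]
    rfl
  | 5 =>
    change (aeval l) (C (P.u - P.Q1 / 2)) = _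
    rw [aeval_C, map_sub]
    rfl
  | 6 =>
    change (aeval l) (C (P.v - P.Q1 / 2)) = _
    rw [aeval_C, map_sub]
    rfl
  | i + 7 => exact map_zero _

theorem half (x : ℂ) : algebraMap ℂ N x = 2 * algebraMap ℂ N (x / 2) := by
  have h : x = 2 * (x / 2) := by ring
  conv_lhs => rw [h]
  rw [map_mul, map_ofNat]

/-- **The invariant of degree two at a node.** -/
theorem hI (h : IsNode P l al be) :
    qI (ntd P l al be).qc = (al * be) ^ 4 * aeval l (pInv P) := by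
  have hr := h.rl
  rw [qc_rl hr (half P.Q1), qI_td _ (fv_zero _ _ _ _ _ _ _ _)]
  have h1 := tab_rl hr (half P.Q1) tab4 4 ok4 (algebraMap ℂ N P.Q0 - algebraMap ℂ N P.Q1)
    (algebraMap ℂ N P.u - algebraMap ℂ N (P.Q1 / 2))
    (algebraMap ℂ N P.v - algebraMap ℂ N (P.Q1 / 2))
    (algebraMap ℂ N P.m - algebraMap ℂ N P.n * l +
      l * algebraMap ℂ N P.P1 * algebraMap ℂ N (P.Q1 / 2) -
      (1 - l) * algebraMap ℂ N (P.Q1 / 2) ^ 2) rfl
  unfold pInv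
  rw [aeval_tab]
  exact h1

/-- **The invariant of degree three at a node.** -/
theorem hJ (h : IsNode P l al be) :
    qJ (ntd P l al be).qc = (al * be) ^ 6 * aeval l (qInv P) := by
  have hr := h.rl
  rw [qc_rl hr (half P.Q1), qJ_td _ (fv_zero _ _ _ _ _ _ _ _)]
  have h1 := tab_rl hr (half P.Q1) tab6 6 ok6 (algebraMap ℂ N P.Q0 - algebraMap ℂ N P.Q1)
    (algebraMap ℂ N P.u - algebraMap ℂ N (P.Q1 / 2))
    (algebraMap ℂ N P.v - algebraMap ℂ N (P.Q1 / 2))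
    (algebraMap ℂ N P.m - algebraMap ℂ N P.n * l +
      l * algebraMap ℂ N P.P1 * algebraMap ℂ N (P.Q1 / 2) -
      (1 - l) * algebraMap ℂ N (P.Q1 / 2) ^ 2) rfl
  unfold qInv
  rw [aeval_tab]
  exact h1

end param

end

end Vale.Agent.P297.H116.Inv
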