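import Vale.Agent.P297.H116.Z2.InvP
import Vale.Agent.P297.H116.Z2.Tab4

/-!
The identity of the invariant I, checked by the kernel.
-/

namespace Vale.Agent.P297.H116.Inv

open Vale.Agent.P224.POS

noncomputable section

/-- the integers that replace `al, be` -/
def MsI : List Nat := [Nat.add (Nat.pow 2 61) 987654321098765431,
  Nat.add (Nat.pow 2 757) 555666777888999001]

set_option maxRecDepth 100000 in
/-- **The identity**, checked by the kernel. -/
theorem chkI : chk MsI (PE.sub E.iI (tabPE E.w E.b tab4)) = true := by
  decide +kernel

end

end Vale.Agent.P297.H116.Inv
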