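import Vale.Agent.P297.H116.Z2.InvT
import Vale.Agent.P297.H940.Z2.Inst

/-!
The quartics of the nodes as expressions, and the reduction to `Q1 = 0`.
-/

namespace Vale.Agent.P297.H116.Inv

open Vale.Agent.P224.POS Vale.Agent.P297.Z2 Vale.Agent.P297.G4

/-! ### Translations -/

section shift

variable {R : Type} [CommRing R] {d d' : TD R} {τ : R}

/-- A translation `y ↦ y + τ` does not change the quartic. -/
theorem qc_shift (he : d.e = d.be - d.al) (hal : d'.al = d.al) (hbe : d'.be = d.be)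
    (hl : d'.l = d.l) (he' : d'.e = d.e) (hA : d'.A = d.A) (hC : d'.C = d.C)
    (hpn : d'.pn = d.pn + d.al * τ) (hrn : d'.rn = d.rn - d.be * τ)
    (hkp : d'.kp = d.kp + 2 * (d.al * d.be * d.e) * τ)
    (hkr : d'.kr = d.kr + 2 * (d.al * d.be * d.e) * τ)
    (hw : d'.w0 = d.w0 - d.al * d.be * (d.e ^ 2 * τ ^ 2) - d'.kp * (d.al * τ) +
      d'.kr * (d.be * τ)) : d'.qc = d.qc := by
  rw [hkp, hkr] at hw
  have hc : d'.c = d.c := by unfold TD.c; rw [hbe, hal, hpn, hrn]; ring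
  have hQ20 : d'.Q20 = d.Q20 := by unfold TD.Q20; rw [hal, hbe, hA, hC]
  have hh0 : d'.h0 = d.h0 := by unfold TD.h0; rw [hal, hbe, hA, hC]
  have hh1 : d'.h1 = d.h1 := by unfold TD.h1; rw [hal, hbe, hA, hC]
  have hY11 : d'.Y11 = d.Y11 := by unfold TD.Y11; rw [hal, hbe, hl]
  have hY10 : d'.Y10 = d.Y10 := by
    unfold TD.Y10; rw [hal, hbe, hl, hA, hC, hpn, hrn, hkp, hkr, he', he]; ring
  have hY02 : d'.Y02 = d.Y02 := by unfold TD.Y02; rw [he', hl]
  have hY01 : d'.Y01 = d.Y01 := by unfold TD.Y01; rw [hh0, hc, hkp, hkr, hl]; ring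
  have hY00 : d'.Y00 = d.Y00 := by
    unfold TD.Y00; rw [hh0, hc, hQ20, hkp, hkr, hl, hpn, hrn, hw, hal, hbe, he', he]
    unfold TD.c; ring
  have hmu : d'.mu0 = d.mu0 := by unfold TD.mu0; rw [hh0, hl, hkr, hkp]; ring
  have hze : d'.ze0 = d.ze0 := by
    unfold TD.ze0; rw [hQ20, hal, hbe, hpn, hrn, hkp, hkr, hw, he]; ring
  have hK12 : d'.K12 = d.K12 := by unfold TD.K12; rw [hl, he']
  have hK11 : d'.K11 = d.K11 := by
    unfold TD.K11; rw [hal, hbe, hpn, hrn, hkp, hkr, he]; ring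
  have hK10 : d'.K10 = d.K10 := by
    unfold TD.K10; rw [hQ20, hal, hbe, hpn, hrn, hkp, hkr, hA, hC, hl, he', he]; ring
  have hG3 : d'.G3 = d.G3 := by unfold TD.G3; rw [hl, he']
  have hG2 : d'.G2 = d.G2 := by unfold TD.G2; rw [hK11, hc, hK12, hal, hbe, hh1, hh0]
  have hG1 : d'.G1 = d.G1 := by unfold TD.G1; rw [hK10, hc, hK11, hal, hbe, hze, hh0]
  have hG0 : d'.G0 = d.G0 := by unfold TD.G0; rw [hK10, hc, hal, hbe, hze, hh0, hh1]
  have hD2 : d'.D2 = d.D2 := by unfold TD.D2; rw [hY11, hY02, hal, hbe, he']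
  have hD1 : d'.D1 = d.D1 := by unfold TD.D1; rw [hY11, hY10, hY01, hal, hbe, he']
  have hD0 : d'.D0 = d.D0 := by unfold TD.D0; rw [hY10, hY00, hal, hbe, he']
  unfold TD.qc
  rw [hQ20, hD0, hD1, hD2, hmu, hG0, hG1, hG2, hG3, hl, hc]

end shift

/-! ### The expressions -/

noncomputable section

namespace E

def al : PE := PE.v 0
def be : PE := PE.v 1
def A : PE := PE.v 2
def C : PE := PE.v 3
def Q : PE := PE.v 4
def u : PE := PE.v 5
def v : PE := PE.v 6
def K : PE := PE.v 7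
def e : PE := be - al
def l : PE := 1 - e
def pn : PE := al * u - C
def rn : PE := 0 - be * v - A
def kp : PE := al * be * (Q - l * (u + v)) + l * e * A
def kr : PE := al * be * (0 - l * (u + v)) + l * e * C
def w0 : PE := 0 - al * be * K + 2 * l * e * A * C - l * e * al * be * u * v -
  l * al * (2 * be - al) * A * u - l * be * (2 * al - be) * C * v
def c : PE := be * pn + al * rn
def Q20 : PE := 0 - 4 * al * be * A * C
def h0 : PE := be * A + al * C
def h1 : PE := al * A + be * C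
def Y11 : PE := 0 - l * (al + be)
def Y10 : PE := 0 - 2 * l * al * be * (A + C) - 2 * e * al * be * (pn + rn) + al * kp - be * kr
def Y02 : PE := e + 2 * l
def Y01 : PE := 2 * l * (h0 - c) + kr - kp
def Y00 : PE := e * Q20 - 2 * l * c * h0 - e * al * be * (pn + rn) ^ 2 - kp * (e * pn - c) -
  kr * (e * rn + c) - e * w0
def mu0 : PE := l * h0 + kr - kp
def ze0 : PE := Q20 - al * be * (pn + rn) ^ 2 - kp * pn - kr * rn - w0
def K12 : PE := 0 - l * e
def K11 : PE := 0 - 2 * al * be * (pn + rn) * (al + be) - al * kp - be * kr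
def K10 : PE := 0 - l * e * Q20 - 4 * (al * be) ^ 2 * (pn + rn) * (A + C) -
  2 * al * be * (C * kp + A * kr)
def G3 : PE := 0 - l * e
def G2 : PE := K11 - c * K12 + 2 * al * be * h1 - 2 * al * be * (h0 - 2 * c)
def G1 : PE := K10 - c * K11 + 2 * al * be * ze0 - 2 * al * be * (c ^ 2 - 2 * c * h0)
def G0 : PE := 0 - c * K10 + 2 * al * be * h1 * ze0 - 2 * al * be * h0 * c ^ 2
def D2 : PE := Y11 ^ 2 + 4 * e * al * be * Y02
def D1 : PE := 2 * Y11 * Y10 + 4 * e * al * be * Y01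
def D0 : PE := Y10 ^ 2 + 4 * e * al * be * Y00
def q0 : PE := Q20 * D0 - 2 * l * (mu0 * G0) + l ^ 2 * (mu0 * c) ^ 2
def q1 : PE := Q20 * D1 - 2 * l * (l * G0 + mu0 * G1) - 2 * l ^ 2 * ((mu0 - l * c) * (mu0 * c))
def q2 : PE := D0 + Q20 * D2 - 2 * l * (l * G1 + mu0 * G2) +
  l ^ 2 * ((mu0 - l * c) ^ 2 - 2 * l * (mu0 * c))
def q3 : PE := D1 - 2 * l * (l * G2 + mu0 * G3) + 2 * l ^ 3 * (mu0 - l * c)
def q4 : PE := D2 - 2 * l ^ 2 * G3 + l ^ 4
/-- the invariant of degree two -/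
def iI : PE := 12 * (q4 * q0) - 3 * (q3 * q1) + q2 ^ 2
/-- the invariant of degree three -/
def iJ : PE := 72 * (q4 * q2 * q0) + 9 * (q3 * q2 * q1) - 27 * (q4 * q1 ^ 2) -
  27 * (q3 ^ 2 * q0) - 2 * q2 ^ 3
/-- the letters of the tables -/
def w (k : Nat) : PE :=
  Nat.rec (motive := fun _ => PE) l (fun k _ => Nat.rec (motive := fun _ => PE)
    ((al * be) ^ 2 * K) (fun k _ => Nat.rec (motive := fun _ => PE) (be ^ 2 * C)
      (fun k _ => Nat.rec (motive := fun _ => PE) (al ^ 2 * A)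
        (fun k _ => Nat.rec (motive := fun _ => PE) (al * be * Q)
          (fun k _ => Nat.rec (motive := fun _ => PE) (al * be * u)
            (fun k _ => Nat.rec (motive := fun _ => PE) (al * be * v)
              (fun _ _ => 0) k) k) k) k) k) k) k
def b : PE := al * be * (l * (A + C) - al * Q)

end E

/-! ### The values -/

section ring

variable {R : Type} [CommRing R] (f : ℕ → R)

/-- The data with the values `f`. -/
def td : TD R where
  al := f 0
  be := f 1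
  l := 1 - (f 1 - f 0)
  e := f 1 - f 0
  A := f 2
  C := f 3
  pn := f 0 * f 5 - f 3
  rn := -(f 1 * f 6) - f 2
  kp := f 0 * f 1 * (f 4 - (1 - (f 1 - f 0)) * (f 5 + f 6)) +
    (1 - (f 1 - f 0)) * (f 1 - f 0) * f 2
  kr := f 0 * f 1 * (0 - (1 - (f 1 - f 0)) * (f 5 + f 6)) +
    (1 - (f 1 - f 0)) * (f 1 - f 0) * f 3
  w0 := -(f 0 * f 1 * f 7) + 2 * (1 - (f 1 - f 0)) * (f 1 - f 0) * f 2 * f 3 -
    (1 - (f 1 - f 0)) * (f 1 - f 0) * f 0 * f 1 * f 5 * f 6 -
    (1 - (f 1 - f 0)) * f 0 * (2 * f 1 - f 0) * f 2 * f 5 -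
    (1 - (f 1 - f 0)) * f 1 * (2 * f 0 - f 1) * f 3 * f 6

theorem ev_two : PE.ev f (2 : PE) = 2 := by
  simpa using PE.ev_ofNat f 2

end ring

end

end Vale.Agent.P297.H116.Inv
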