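import Vale.Agent.P297.H116.Z2.Inv
import Vale.Agent.P297.H10.Z2.TriInst

/-!
The invariants of the quartics of the nodes of `T_l`: the structure `InvPQ`.
-/

open Polynomial

namespace Vale.Agent.P297.H116.Inv

open Vale.Agent.P297.Z2
open Vale.Agent.P297.H160.Z2Irr

/-- **The invariants of the quartics of the nodes.** -/
theorem invPQ {P : Par} (hd : 4 * pInv P ^ 3 ≠ qInv P ^ 2)
    (hn : ∀ α β a b : ℂ, ¬ (pInv P = C α * (C a * X + C b) ^ 4 ∧
      qInv P = C β * (C a * X + C b) ^ 6)) : InvPQ P (pInv P) (qInv P) where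
  degp := pInv_deg P
  degq := qInv_deg P
  disc := hd
  nt := hn
  hI := fun _ _ _ _ _ _ h => hI h
  hJ := fun _ _ _ _ _ _ h => hJ h

end Vale.Agent.P297.H116.Inv
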