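import Vale.Agent.P224.POS.Check

/-!
Tables of polynomials and the expressions that the kernel evaluates.

A row `(a, c)` is the monomial `a * z 0 ^ j * z 1 ^ m * z 2 ^ .. * … * z 6 ^ ..`, where `c` has the
hexadecimal digits `j, m, …` (lowest digit first); the table with the groups `g 0, g 1, …` is
`Σ g i * b ^ i`.
-/

namespace Vale.Agent.P297.H116.Inv

open Vale.Agent.P224.POS

noncomputable section

/-- rows -/
inductive Row where
  | mk (a : Int) (c : Nat) : Row

/-- the digits -/
def dig (c k : Nat) : Nat := Nat.mod (Nat.div c (Nat.pow 16 k)) 16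

def Row.a (r : Row) : Int := Row.rec (motive := fun _ => Int) (fun a _ => a) r
def Row.c (r : Row) : Nat := Row.rec (motive := fun _ => Nat) (fun _ c => c) r

section ring

variable {R : Type*} [CommRing R]

/-- the value of a row -/
def rowEv (z : ℕ → R) (r : Row) : R :=
  (r.a : R) * (z 0 ^ dig r.c 0 * (z 1 ^ dig r.c 1 * (z 2 ^ dig r.c 2 * (z 3 ^ dig r.c 3 *
    (z 4 ^ dig r.c 4 * (z 5 ^ dig r.c 5 * z 6 ^ dig r.c 6))))))

/-- the value of a group -/
def grEv (z : ℕ → R) (g : List Row) : R :=
  List.rec (motive := fun _ => R) 0 (fun r _ ih => rowEv z r + ih) g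

/-- the value of a table -/
def tabEv (z : ℕ → R) (b : R) (T : List (List Row)) : R :=
  List.rec (motive := fun _ => R) 0 (fun g _ ih => grEv z g + b * ih) T

@[simp] theorem grEv_nil (z : ℕ → R) : grEv z [] = 0 := rfl
@[simp] theorem grEv_cons (z : ℕ → R) (r : Row) (g : List Row) :
    grEv z (r :: g) = rowEv z r + grEv z g := rfl
@[simp] theorem tabEv_nil (z : ℕ → R) (b : R) : tabEv z b [] = 0 := rfl
@[simp] theorem tabEv_cons (z : ℕ → R) (b : R) (g : List Row) (T : List (List Row)) :
    tabEv z b (g :: T) = grEv z g + b * tabEv z b T := rfl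

theorem map_rowEv {S : Type*} [CommRing S] (f : R →+* S) (z : ℕ → R) (r : Row) :
    f (rowEv z r) = rowEv (fun i => f (z i)) r := by
  simp only [rowEv, map_mul, map_pow, map_intCast]

theorem map_grEv {S : Type*} [CommRing S] (f : R →+* S) (z : ℕ → R) (g : List Row) :
    f (grEv z g) = grEv (fun i => f (z i)) g := by
  induction g with
  | nil => simp
  | cons r g ih => simp only [grEv_cons, map_add, ih, map_rowEv]

theorem map_tabEv {S : Type*} [CommRing S] (f : R →+* S) (z : ℕ → R) (b : R)
    (T : List (List Row)) : f (tabEv z b T) = tabEv (fun i => f (z i)) (f b) T := by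
  induction T with
  | nil => simp
  | cons g T ih => simp only [tabEv_cons, map_add, map_mul, ih, map_grEv]

/-! ### Homogeneity -/

/-- the weight of a row (the letters have the weights `0, 2, 1, 1, 1, 1, 1`) -/
def wt (c : ℕ) : ℕ := 2 * dig c 1 + dig c 2 + dig c 3 + dig c 4 + dig c 5 + dig c 6

/-- all rows of the group `i` have the weight `w - i` -/
def okW (w : ℕ) : ℕ → List (List Row) → Bool
  | _, [] => true
  | i, g :: T => g.all (fun r => wt r.c + i == w) && okW w (i + 1) T

/-- the scaled letters -/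
def scal (s : R) (z : ℕ → R) (k : ℕ) : R :=
  match k with
  | 0 => z 0
  | 1 => s ^ 2 * z 1
  | k + 2 => s * z (k + 2)

theorem rowEv_scal (s : R) (z : ℕ → R) (r : Row) :
    rowEv (scal s z) r = s ^ wt r.c * rowEv z r := by
  unfold rowEv wt scal
  simp only [mul_pow, pow_add, pow_mul]
  ring

theorem grEv_scal (s : R) (z : ℕ → R) (w i : ℕ) (g : List Row)
    (h : g.all (fun r => wt r.c + i == w) = true) :
    s ^ i * grEv (scal s z) g = s ^ w * grEv z g := by
  induction g with
  | nil => simp
  | cons r g ih =>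
    rw [List.all_cons, Bool.and_eq_true] at h
    have h1 : wt r.c + i = w := by simpa using h.1
    rw [grEv_cons, grEv_cons, mul_add, mul_add, ih h.2, rowEv_scal, ← h1, pow_add]
    ring

theorem tabEv_scal_aux (s : R) (z : ℕ → R) (b : R) (w : ℕ) (T : List (List Row)) (i : ℕ)
    (h : okW w i T = true) :
    s ^ i * tabEv (scal s z) (s * b) T = s ^ w * tabEv z b T := by
  induction T generalizing i with
  | nil => simp
  | cons g T ih =>
    unfold okW at h
    rw [Bool.and_eq_true] at h
    have h1 := ih (i + 1) h.2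
    rw [tabEv_cons, tabEv_cons, mul_add, grEv_scal s z w i g h.1, mul_add]
    rw [pow_succ] at h1
    linear_combination b * h1

theorem tabEv_scal (s : R) (z : ℕ → R) (b : R) (w : ℕ) (T : List (List Row))
    (h : okW w 0 T = true) :
    tabEv (scal s z) (s * b) T = s ^ w * tabEv z b T := by
  have := tabEv_scal_aux s z b w T 0 h
  rwa [pow_zero, one_mul] at this

end ring

/-! ### Degrees -/

section degree

open Polynomial

variable {k : Type*} [CommRing k]

/-- the degree of all rows of the group `i` is at most `D - i` -/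
def okD : ℕ → List (List Row) → Bool
  | _, [] => true
  | 0, g :: T => g.all (fun r => dig r.c 0 + dig r.c 1 == 0) && T.isEmpty
  | D + 1, g :: T => g.all (fun r => decide (dig r.c 0 + dig r.c 1 ≤ D + 1)) && okD D T

variable {z : ℕ → k[X]} {b : k[X]}

theorem rowEv_deg (h0 : (z 0).natDegree ≤ 1) (h1 : (z 1).natDegree ≤ 1)
    (h : ∀ i, (z (i + 2)).natDegree = 0) (r : Row) :
    (rowEv z r).natDegree ≤ dig r.c 0 + dig r.c 1 := by
  have hp : ∀ (i n : ℕ), (z (i + 2) ^ n).natDegree ≤ 0 := fun i n =>
    natDegree_pow_le.trans (by rw [h i, mul_zero])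
  unfold rowEv
  have e0 : ((r.a : ℤ) : k[X]).natDegree ≤ 0 := by rw [natDegree_intCast]
  have e1 : (z 0 ^ dig r.c 0).natDegree ≤ dig r.c 0 :=
    natDegree_pow_le.trans (by simpa using Nat.mul_le_mul_left (dig r.c 0) h0)
  have e2 : (z 1 ^ dig r.c 1).natDegree ≤ dig r.c 1 :=
    natDegree_pow_le.trans (by simpa using Nat.mul_le_mul_left (dig r.c 1) h1)
  have e3 := natDegree_mul_le_of_le (hp 3 (dig r.c 5)) (hp 4 (dig r.c 6))
  have e4 := natDegree_mul_le_of_le (hp 2 (dig r.c 4)) e3
  have e5 := natDegree_mul_le_of_le (hp 1 (dig r.c 3)) e4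
  have e6 := natDegree_mul_le_of_le (hp 0 (dig r.c 2)) e5
  have e7 := natDegree_mul_le_of_le e2 e6
  have e8 := natDegree_mul_le_of_le e1 e7
  have e9 := natDegree_mul_le_of_le e0 e8
  refine e9.trans ?_
  omega

theorem grEv_deg (h0 : (z 0).natDegree ≤ 1) (h1 : (z 1).natDegree ≤ 1)
    (h : ∀ i, (z (i + 2)).natDegree = 0) (D : ℕ) (g : List Row)
    (hg : ∀ r ∈ g, dig r.c 0 + dig r.c 1 ≤ D) : (grEv z g).natDegree ≤ D := by
  induction g with
  | nil => simp
  | cons r g ih =>
    rw [grEv_cons]
    exact natDegree_add_le_of_degree_le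
      ((rowEv_deg h0 h1 h r).trans (hg r List.mem_cons_self))
      (ih fun s hs => hg s (List.mem_cons_of_mem _ hs))

theorem tabEv_deg (h0 : (z 0).natDegree ≤ 1) (h1 : (z 1).natDegree ≤ 1)
    (h : ∀ i, (z (i + 2)).natDegree = 0) (hb : b.natDegree ≤ 1) (T : List (List Row)) (D : ℕ)
    (hT : okD D T = true) : (tabEv z b T).natDegree ≤ D := by
  induction T generalizing D with
  | nil => simp
  | cons g T ih =>
    rw [tabEv_cons]
    cases D with
    | zero =>
      unfold okD at hT
      rw [Bool.and_eq_true, List.all_eq_true] at hT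
      have hT2 : T = [] := by simpa using hT.2
      subst hT2
      rw [tabEv_nil, mul_zero, add_zero]
      exact grEv_deg h0 h1 h 0 g fun r hr => by
        have := hT.1 r hr
        simp only [beq_iff_eq] at this
        omega
    | succ D =>
      unfold okD at hT
      rw [Bool.and_eq_true, List.all_eq_true] at hT
      refine natDegree_add_le_of_degree_le (grEv_deg h0 h1 h (D + 1) g fun r hr => ?_) ?_
      · have := hT.1 r hr
        simpa using this
      · refine (natDegree_mul_le_of_le hb (ih D hT.2)).trans ?_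
        omega

end degree

/-! ### Expressions -/

/-- the expression of a row -/
def rowPE (w : Nat → PE) (r : Row) : PE :=
  PE.mul (PE.c r.a) (PE.mul (PE.pow (w 0) (dig r.c 0)) (PE.mul (PE.pow (w 1) (dig r.c 1))
    (PE.mul (PE.pow (w 2) (dig r.c 2)) (PE.mul (PE.pow (w 3) (dig r.c 3))
      (PE.mul (PE.pow (w 4) (dig r.c 4)) (PE.mul (PE.pow (w 5) (dig r.c 5))
        (PE.pow (w 6) (dig r.c 6))))))))

/-- the expression of a group -/
def grPE (w : Nat → PE) (g : List Row) : PE :=
  List.rec (motive := fun _ => PE) (PE.c 0) (fun r _ ih => PE.add (rowPE w r) ih) g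

/-- the expression of a table -/
def tabPE (w : Nat → PE) (b : PE) (T : List (List Row)) : PE :=
  List.rec (motive := fun _ => PE) (PE.c 0) (fun g _ ih => PE.add (grPE w g) (PE.mul b ih)) T

section ev

variable {R : Type*} [CommRing R] (f : ℕ → R)

theorem ev_rowPE (w : Nat → PE) (r : Row) :
    PE.ev f (rowPE w r) = rowEv (fun i => PE.ev f (w i)) r := by
  simp only [rowPE, rowEv, PE.ev_mul, PE.ev_pow, PE.ev_c]

theorem ev_grPE (w : Nat → PE) (g : List Row) :
    PE.ev f (grPE w g) = grEv (fun i => PE.ev f (w i)) g := by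
  induction g with
  | nil => change PE.ev f (PE.c 0) = 0; simp
  | cons r g ih =>
    rw [grEv_cons, ← ih, ← ev_rowPE]
    rfl

theorem ev_tabPE (w : Nat → PE) (b : PE) (T : List (List Row)) :
    PE.ev f (tabPE w b T) = tabEv (fun i => PE.ev f (w i)) (PE.ev f b) T := by
  induction T with
  | nil => change PE.ev f (PE.c 0) = 0; simp
  | cons g T ih =>
    rw [tabEv_cons, ← ih, ← ev_grPE]
    rfl

end ev

end

end Vale.Agent.P297.H116.Inv
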